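import Vale.Agent.P365.Bdl.B1

set_option linter.all false

/-!
# P365 / Z0: the spectral measures live on `[-(4+lam), 4+lam]` (helper733)
-/

namespace P365L.Z0

open MeasureTheory Complex Filter Topology
open scoped ENNReal InnerProductSpace

variable {V : Site → ℝ} {z : ℂ}

/-- resolvent bound off the spectrum -/
theorem res_bound733 {a : ℝ} (ha : 4 < a) (hV : ∀ x, a ≤ ‖(V x : ℂ) - z‖) {ψ u : L2}
    (hu : IsResolvent V z ψ u) :
    ‖u‖ ^ 2 ≤ (2 * (1 + 32 / (a ^ 2 - 16)) / (a ^ 2 - 16)) * ‖ψ‖ ^ 2 := by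
  have h16 : 0 < a ^ 2 - 16 := by nlinarith
  obtain ⟨s, hs⟩ : ∃ s : ℝ, s = (a ^ 2 - 16) / 32 := ⟨_, rfl⟩
  have hs0 : 0 < s := by rw [hs]; positivity
  have hpt : ∀ x, a ^ 2 * ‖u x‖ ^ 2 ≤
      (1 + 1 / s) * ‖ψ x‖ ^ 2 + (1 + s) * ‖hop (fun y => u y) x‖ ^ 2 := by
    intro x
    have h1 : ((V x : ℂ) - z) * u x = ψ x - hop (fun y => u y) x := by
      rw [← hu x]; ring
    have h2 : ‖(V x : ℂ) - z‖ * ‖u x‖ ≤ ‖ψ x‖ + ‖hop (fun y => u y) x‖ := by
      rw [← norm_mul, h1]; exact norm_sub_le _ _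
    have h3 : a * ‖u x‖ ≤ ‖ψ x‖ + ‖hop (fun y => u y) x‖ :=
      (mul_le_mul_of_nonneg_right (hV x) (norm_nonneg _)).trans h2
    have h4 := pow_le_pow_left₀ (by positivity) h3 2
    generalize ‖ψ x‖ = p at *
    generalize ‖hop (fun y => u y) x‖ = q at *
    have h5 : (p + q) ^ 2 ≤ (1 + 1 / s) * p ^ 2 + (1 + s) * q ^ 2 := by
      have h6 : 0 ≤ (p - s * q) ^ 2 / s := by positivity
      have h7 : (p - s * q) ^ 2 / s = (1 / s) * p ^ 2 - 2 * p * q + s * q ^ 2 := by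
        field_simp
        ring
      nlinarith only [h6, h7]
    calc a ^ 2 * ‖u x‖ ^ 2 = (a * ‖u x‖) ^ 2 := by ring
      _ ≤ (p + q) ^ 2 := h4
      _ ≤ _ := h5
  have hsum : ∀ F : Finset Site, ∑ x ∈ F, a ^ 2 * ‖u x‖ ^ 2 ≤
      (1 + 1 / s) * ‖ψ‖ ^ 2 + (1 + s) * (16 * ‖u‖ ^ 2) := by
    intro F
    calc ∑ x ∈ F, a ^ 2 * ‖u x‖ ^ 2
        ≤ ∑ x ∈ F, ((1 + 1 / s) * ‖ψ x‖ ^ 2 + (1 + s) * ‖hop (fun y => u y) x‖ ^ 2) :=
          Finset.sum_le_sum fun x _ => hpt x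
      _ = (1 + 1 / s) * ∑ x ∈ F, ‖ψ x‖ ^ 2 + (1 + s) * ∑ x ∈ F, ‖hop (fun y => u y) x‖ ^ 2 := by
          rw [Finset.sum_add_distrib, Finset.mul_sum, Finset.mul_sum]
      _ ≤ _ := by
          have e1 := sum_sq_le ψ F
          have e2 := sum_hop_sq (w := fun y => u y) (T := ‖u‖ ^ 2) (fun G => sum_sq_le u G) F
          have e3 : 0 ≤ 1 + 1 / s := by positivity
          have e4 : 0 ≤ 1 + s := by positivity
          exact add_le_add (mul_le_mul_of_nonneg_left e1 e3) (mul_le_mul_of_nonneg_left e2 e4)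
  have hfin := hasSum_le_of_sum_le ((L2_hasSum_sq u).mul_left (a ^ 2)) hsum
  have h1s : 1 / s = 32 / (a ^ 2 - 16) := by rw [hs, one_div_div]
  rw [h1s] at hfin
  have h2 : (a ^ 2 - 16) / 2 * ‖u‖ ^ 2 ≤ (1 + 32 / (a ^ 2 - 16)) * ‖ψ‖ ^ 2 := by
    have h3 : (1 + s) * (16 * ‖u‖ ^ 2) = 16 * ‖u‖ ^ 2 + (a ^ 2 - 16) / 2 * ‖u‖ ^ 2 := by
      rw [hs]; ring
    rw [h3] at hfin
    linarith only [hfin]
  have h3 : ‖u‖ ^ 2 ≤ ((1 + 32 / (a ^ 2 - 16)) * ‖ψ‖ ^ 2) / ((a ^ 2 - 16) / 2) := by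
    rw [le_div_iff₀ (by positivity)]
    linarith only [h2]
  refine h3.trans (le_of_eq ?_)
  field_simp

theorem ball_bound733 {lam a : ℝ} (ha : 4 < a) (hV : ∀ x, |V x| ≤ lam) {ψ : L2} {μ : Measure ℝ}
    (hμ : IsSpectralMeasure V ψ μ) {E : ℝ} (hE : a + lam ≤ |E|) {η : ℝ} (hη : 0 < η) :
    μ (Metric.closedBall E η) ≤
      ENNReal.ofReal (2 * ((2 * (1 + 32 / (a ^ 2 - 16)) / (a ^ 2 - 16)) * ‖ψ‖ ^ 2) * η ^ 2) := by
  have := hμ.finite
  have hz : 0 < ((E : ℂ) + η * I).im := by simpa using hη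
  obtain ⟨u, hu⟩ := resolvent_exists V hz ψ
  have h1 : ∀ x, a ≤ ‖(V x : ℂ) - ((E : ℂ) + η * I)‖ := by
    intro x
    have h2 : ((V x : ℂ) - ((E : ℂ) + η * I)).re = V x - E := by simp
    have h3 := Complex.abs_re_le_norm ((V x : ℂ) - ((E : ℂ) + η * I))
    rw [h2] at h3
    have h4 := abs_sub_abs_le_abs_sub E (V x)
    rw [abs_sub_comm E (V x)] at h4
    have h5 := hV x
    linarith only [h3, h4, h5, hE]
  have h2 := res_bound733 ha h1 hu
  have h3 := poisson_eq hμ E hη hu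
  have h4 := ball_le_poisson (μ := μ) E hη
  rw [h3, div_le_iff₀ (by positivity)] at h4
  have h5 : μ (Metric.closedBall E η) = ENNReal.ofReal (μ.real (Metric.closedBall E η)) :=
    (ENNReal.ofReal_toReal (measure_ne_top _ _)).symm
  rw [h5]
  refine ENNReal.ofReal_le_ofReal (h4.trans ?_)
  have h6 : 0 ≤ 2 * η ^ 2 := by positivity
  have h7 := mul_le_mul_of_nonneg_left h2 h6
  calc η * ‖u‖ ^ 2 * (2 * η) = 2 * η ^ 2 * ‖u‖ ^ 2 := by ring
    _ ≤ _ := h7
    _ = _ := by ring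

theorem icc_null733 {lam a : ℝ} (ha : 4 < a) (hV : ∀ x, |V x| ≤ lam) {ψ : L2} {μ : Measure ℝ}
    (hμ : IsSpectralMeasure V ψ μ) {c d : ℝ} (hcd : c < d)
    (hE : ∀ E ∈ Set.Icc c d, a + lam ≤ |E|) : μ (Set.Icc c d) = 0 := by
  have := hμ.finite
  set M : ℝ := (2 * (1 + 32 / (a ^ 2 - 16)) / (a ^ 2 - 16)) * ‖ψ‖ ^ 2 with hM
  have hM0 : 0 ≤ M := by
    have h16 : 0 < a ^ 2 - 16 := by nlinarith
    rw [hM]
    positivity
  have key : ∀ n : ℕ, μ (Set.Icc c d) ≤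
      ENNReal.ofReal (((n : ℝ) + 2) * (2 * M * ((d - c) / ((n : ℝ) + 1)) ^ 2)) := by
    intro n
    set η : ℝ := (d - c) / ((n : ℝ) + 1) with hη
    have hn : (0 : ℝ) < (n : ℝ) + 1 := by positivity
    have hη0 : 0 < η := div_pos (by linarith) hn
    have hηn : ((n : ℝ) + 1) * η = d - c := by rw [hη]; field_simp
    have hcov : Set.Icc c d ⊆ ⋃ i ∈ Finset.range (n + 2), Metric.closedBall (c + i * η) η := by
      intro t ht
      have ht0 : 0 ≤ (t - c) / η := div_nonneg (by linarith [ht.1]) hη0.le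
      refine Set.mem_iUnion₂.2 ⟨⌊(t - c) / η⌋₊, ?_, ?_⟩
      · rw [Finset.mem_range]
        have h1 : (t - c) / η ≤ (n : ℝ) + 1 := by
          rw [div_le_iff₀ hη0, hηn]
          linarith [ht.2]
        have h2 := (Nat.floor_le ht0).trans h1
        have h3 : (⌊(t - c) / η⌋₊ : ℝ) < ((n + 2 : ℕ) : ℝ) := by push_cast; linarith
        exact_mod_cast h3
      · rw [Metric.mem_closedBall, Real.dist_eq, abs_le]
        have h1 := Nat.floor_le ht0
        have h2 := (Nat.lt_floor_add_one ((t - c) / η)).le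
        rw [le_div_iff₀ hη0] at h1
        rw [div_le_iff₀ hη0] at h2
        constructor
        · linarith
        · linarith
    calc μ (Set.Icc c d)
        ≤ μ (⋃ i ∈ Finset.range (n + 2), Metric.closedBall (c + i * η) η) := measure_mono hcov
      _ ≤ ∑ i ∈ Finset.range (n + 2), μ (Metric.closedBall (c + i * η) η) :=
          measure_biUnion_finset_le _ _
      _ ≤ ∑ i ∈ Finset.range (n + 2), ENNReal.ofReal (2 * M * η ^ 2) := by
          refine Finset.sum_le_sum fun i hi => ?_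
          by_cases hi' : i = n + 1
          · have h1 : c + (i : ℝ) * η = d := by
              rw [hi']
              push_cast
              linarith
            rw [h1]
            exact ball_bound733 ha hV hμ (hE d ⟨hcd.le, le_rfl⟩) hη0
          · rw [Finset.mem_range] at hi
            have h2 : (i : ℝ) ≤ n := by exact_mod_cast (by omega : i ≤ n)
            refine ball_bound733 ha hV hμ (hE _ ⟨?_, ?_⟩) hη0
            · have : 0 ≤ (i : ℝ) * η := by positivity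
              linarith
            · have := mul_le_mul_of_nonneg_right h2 hη0.le
              linarith
      _ = _ := by
          rw [Finset.sum_const, Finset.card_range, nsmul_eq_mul,
            ENNReal.ofReal_mul (p := (n : ℝ) + 2) (by positivity)]
          congr 1
          have : (n : ℝ) + 2 = ((n + 2 : ℕ) : ℝ) := by push_cast; ring
          rw [this, ENNReal.ofReal_natCast]
  have hlim : Tendsto (fun n : ℕ => ((n : ℝ) + 2) * (2 * M * ((d - c) / ((n : ℝ) + 1)) ^ 2)) atTop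
      (𝓝 0) := by
    have h1 : Tendsto (fun n : ℕ => 1 / ((n : ℝ) + 1)) atTop (𝓝 0) :=
      tendsto_one_div_add_atTop_nhds_zero_nat
    have h2 : Tendsto (fun n : ℕ => 2 * M * (d - c) ^ 2 * ((1 / ((n : ℝ) + 1)) +
        (1 / ((n : ℝ) + 1)) * (1 / ((n : ℝ) + 1)))) atTop
        (𝓝 (2 * M * (d - c) ^ 2 * (0 + 0 * 0))) := (h1.add (h1.mul h1)).const_mul _
    rw [mul_zero, add_zero, mul_zero] at h2
    refine h2.congr fun n => ?_
    have hn : (n : ℝ) + 1 ≠ 0 := by positivity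
    field_simp
    ring
  have h0 := ENNReal.tendsto_ofReal hlim
  rw [ENNReal.ofReal_zero] at h0
  exact le_antisymm (ge_of_tendsto' h0 key) zero_le

/-- **Support.** -/
theorem spec_support {V : Site → ℝ} {lam : ℝ} (hV : ∀ x, |V x| ≤ lam) {ψ : L2} {μ : Measure ℝ}
    (hμ : IsSpectralMeasure V ψ μ) : μ (Set.Icc (-(4 + lam)) (4 + lam))ᶜ = 0 := by
  have hlam : 0 ≤ lam := (abs_nonneg _).trans (hV (0, 0))
  have hsub : (Set.Icc (-(4 + lam)) (4 + lam))ᶜ ⊆
      (⋃ n : ℕ, Set.Icc (4 + lam + 1 / ((n : ℝ) + 1)) (4 + lam + 1 / ((n : ℝ) + 1) + n + 1)) ∪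
      ⋃ n : ℕ, Set.Icc (-(4 + lam + 1 / ((n : ℝ) + 1) + n + 1)) (-(4 + lam + 1 / ((n : ℝ) + 1))) := by
    have key : ∀ t : ℝ, 4 + lam < t → ∃ n : ℕ, 4 + lam + 1 / ((n : ℝ) + 1) ≤ t ∧
        t ≤ 4 + lam + 1 / ((n : ℝ) + 1) + n + 1 := by
      intro t ht
      obtain ⟨n1, hn1⟩ := exists_nat_one_div_lt (sub_pos.2 ht)
      obtain ⟨n2, hn2⟩ := exists_nat_ge (t - (4 + lam))
      refine ⟨max n1 n2, ?_, ?_⟩
      · have h1 : 1 / (((max n1 n2 : ℕ) : ℝ) + 1) ≤ 1 / ((n1 : ℝ) + 1) := by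
          refine one_div_le_one_div_of_le (by positivity) ?_
          have : (n1 : ℝ) ≤ ((max n1 n2 : ℕ) : ℝ) := by exact_mod_cast le_max_left _ _
          linarith
        linarith
      · have h1 : (n2 : ℝ) ≤ ((max n1 n2 : ℕ) : ℝ) := by exact_mod_cast le_max_right _ _
        have h2 : 0 ≤ 1 / (((max n1 n2 : ℕ) : ℝ) + 1) := by positivity
        linarith
    intro t ht
    rw [Set.mem_compl_iff, Set.mem_Icc, not_and_or, not_le, not_le] at ht
    rcases ht with h | h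
    · right
      obtain ⟨n, hn1, hn2⟩ := key (-t) (by linarith)
      exact Set.mem_iUnion.2 ⟨n, by linarith, by linarith⟩
    · left
      obtain ⟨n, hn1, hn2⟩ := key t h
      exact Set.mem_iUnion.2 ⟨n, hn1, hn2⟩
  refine measure_mono_null hsub (measure_union_null ?_ ?_)
  · refine measure_iUnion_null fun n => ?_
    have hn : (0 : ℝ) < 1 / ((n : ℝ) + 1) := by positivity
    refine icc_null733 (a := 4 + 1 / ((n : ℝ) + 1)) (by linarith) hV hμ (by
      have : (0 : ℝ) ≤ n := Nat.cast_nonneg n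
      linarith) fun E hE => ?_
    have h1 := hE.1
    have h2 := le_abs_self E
    linarith
  · refine measure_iUnion_null fun n => ?_
    have hn : (0 : ℝ) < 1 / ((n : ℝ) + 1) := by positivity
    refine icc_null733 (a := 4 + 1 / ((n : ℝ) + 1)) (by linarith) hV hμ (by
      have : (0 : ℝ) ≤ n := Nat.cast_nonneg n
      linarith) fun E hE => ?_
    have h1 := hE.2
    have h2 := neg_le_abs E
    linarith

end P365L.Z0
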